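import Vale.Agent.P130.Rank.LabelTiling.Moment

/-!
A labelling of the tiles for which every fibre holds almost its expected number of good points.
-/

open Finset

namespace Vale.Agent.P130.Rank.LabelTiling

open Vale.Agent.P110.Exist.Tiling (dotZ fold tileAt card_fibre exists_coincide_le wgt avg avg_prod
  avg_one avg_add avg_sum avg_const_mul avg_abs_le exists_le_avg Apart)

variable {D H W : ℕ} [NeZero H]

/-- The label of a tile: mirrored tiles carry mirrored labels. -/
def lab (ω : Fin H → Fin W) (s : ZMod (2 * H)) : Fin W :=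
  if s.val < H then ω (fold s) else (ω (fold s)).rev

/-- The labels of the free coordinate that put the label of `s` into `Λ`. -/
def ev (Λ : Finset (Fin W)) (s : ZMod (2 * H)) : Finset (Fin W) :=
  if s.val < H then Λ else univ.filter fun x => x.rev ∈ Λ

lemma mem_ev (Λ : Finset (Fin W)) (ω : Fin H → Fin W) (s : ZMod (2 * H)) :
    ω (fold s) ∈ ev Λ s ↔ lab ω s ∈ Λ := by
  unfold ev lab
  split_ifs <;> simp

omit [NeZero H] in
lemma card_ev (Λ : Finset (Fin W)) (s : ZMod (2 * H)) : (ev Λ s).card = Λ.card := by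
  unfold ev
  split_ifs
  · rfl
  · exact card_bij (fun x _ => x.rev) (fun x hx => (mem_filter.1 hx).2)
      (fun x _ y _ h => Fin.rev_injective h) fun y hy => ⟨y.rev, by simp [hy], Fin.rev_rev y⟩

/-- The uniform weight. -/
noncomputable def unif (W : ℕ) : Fin W → ℝ := fun _ => 1 / W

omit [NeZero H] in
lemma sum_unif (s : Finset (Fin W)) : ∑ x ∈ s, unif W x = (s.card : ℝ) / W := by
  simp [unif, div_eq_mul_inv]

omit [NeZero H] in
lemma sum_unif_univ (hW : 0 < W) : ∑ x, unif W x = 1 := by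
  rw [sum_unif, card_univ, Fintype.card_fin, div_self (Nat.cast_ne_zero.2 hW.ne')]

/-- The tile of `n` at `y`, before folding. -/
def tileS (q : (Fin D → ℤ) → ℕ) (n : Fin D → ℤ) (y : Fin D → ZMod (2 * H)) : ZMod (2 * H) :=
  dotZ n y + (q n : ZMod (2 * H))

/-- A point all of whose tiles have allowed labels. -/
def Good (S : Finset (Fin D → ℤ)) (Λ : (Fin D → ℤ) → Finset (Fin W)) (q : (Fin D → ℤ) → ℕ)
    (ω : Fin H → Fin W) (y : Fin D → ZMod (2 * H)) : Prop :=
  ∀ n ∈ S, lab ω (tileS q n y) ∈ Λ n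

open Classical in
/-- The number of good points with tile `s` of `n`. -/
noncomputable def inTile (S : Finset (Fin D → ℤ)) (Λ : (Fin D → ℤ) → Finset (Fin W))
    (q : (Fin D → ℤ) → ℕ) (ω : Fin H → Fin W) (n : Fin D → ℤ) (s : ZMod (2 * H)) : ℕ :=
  (univ.filter fun y => tileS q n y = s ∧ Good S Λ q ω y).card

/-- Its deviation from the expected number. -/
noncomputable def fibDev (S : Finset (Fin D → ℤ)) (Λ : (Fin D → ℤ) → Finset (Fin W))
    (q : (Fin D → ℤ) → ℕ) (ω : Fin H → Fin W) (n : Fin D → ℤ) (s : ZMod (2 * H)) : ℝ :=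
  (inTile S Λ q ω n s : ℝ) - (∏ n' ∈ S.erase n, ((Λ n').card : ℝ) / W) *
    ((2 * H : ℕ) : ℝ) ^ (D - 1) * (if lab ω s ∈ Λ n then 1 else 0)

/-- The number of tiles with a label in `Λ`. -/
def tiles (Λ : Finset (Fin W)) (ω : Fin H → Fin W) : Finset (ZMod (2 * H)) :=
  univ.filter fun s => lab ω s ∈ Λ

lemma card_tiles_eq (Λ : Finset (Fin W)) (ω : Fin H → Fin W) : ((tiles Λ ω).card : ℝ) =
    ∑ i, ((if ω i ∈ Λ then (1 : ℝ) else 0) + if (ω i).rev ∈ Λ then (1 : ℝ) else 0) := by
  classical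
  have hH := NeZero.pos H
  simp only [sum_add_distrib, sum_boole, ← Nat.cast_add, Nat.cast_inj, tiles]
  rw [← card_filter_add_card_filter_not (fun s : ZMod (2 * H) => s.val < H)]
  congr 1 <;> rw [filter_filter]
  · refine card_bij (fun s _ => fold s) (fun s hs => ?_) (fun s hs s' hs' e => ?_) fun i hi => ?_
    · obtain ⟨-, h1, h2⟩ := mem_filter.1 hs
      rw [lab, if_pos h2] at h1
      exact mem_filter.2 ⟨mem_univ _, h1⟩
    · obtain ⟨-, -, h2⟩ := mem_filter.1 hs
      obtain ⟨-, -, h2'⟩ := mem_filter.1 hs'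
      have hv := Fin.ext_iff.1 e
      simp only [Vale.Agent.P110.Exist.Tiling.fold, if_pos h2, if_pos h2'] at hv
      exact ZMod.val_injective _ hv
    · have hv : ((i : ℕ) : ZMod (2 * H)).val = i :=
        ZMod.val_natCast_of_lt (by have := i.isLt; omega)
      have hf : fold ((i : ℕ) : ZMod (2 * H)) = i := by
        ext; simp [Vale.Agent.P110.Exist.Tiling.fold, hv]
      refine ⟨((i : ℕ) : ZMod (2 * H)), mem_filter.2 ⟨mem_univ _, ?_, hv.le.trans_lt i.isLt⟩, hf⟩
      rw [lab, if_pos (hv.le.trans_lt i.isLt), hf]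
      exact (mem_filter.1 hi).2
  · refine card_bij (fun s _ => fold s) (fun s hs => ?_) (fun s hs s' hs' e => ?_) fun i hi => ?_
    · obtain ⟨-, h1, h2⟩ := mem_filter.1 hs
      rw [lab, if_neg h2] at h1
      exact mem_filter.2 ⟨mem_univ _, h1⟩
    · obtain ⟨-, -, h2⟩ := mem_filter.1 hs
      obtain ⟨-, -, h2'⟩ := mem_filter.1 hs'
      have hv := Fin.ext_iff.1 e
      simp only [Vale.Agent.P110.Exist.Tiling.fold, if_neg h2, if_neg h2'] at hv
      have := ZMod.val_lt s
      have := ZMod.val_lt s'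
      exact ZMod.val_injective _ (by omega)
    · have := i.isLt
      have hv : ((2 * H - 1 - i : ℕ) : ZMod (2 * H)).val = 2 * H - 1 - i :=
        ZMod.val_natCast_of_lt (by omega)
      have hlt : ¬ ((2 * H - 1 - i : ℕ) : ZMod (2 * H)).val < H := by rw [hv]; omega
      have hf : fold ((2 * H - 1 - i : ℕ) : ZMod (2 * H)) = i := by
        ext
        rw [hv] at hlt
        simp only [Vale.Agent.P110.Exist.Tiling.fold, hv]
        rw [if_neg hlt]
        omega
      refine ⟨((2 * H - 1 - i : ℕ) : ZMod (2 * H)), mem_filter.2 ⟨mem_univ _, ?_, hlt⟩, hf⟩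
      rw [lab, if_neg hlt, hf]
      exact (mem_filter.1 hi).2

omit [NeZero H] in
/-- Independent centred sums are small in square mean. -/
lemma avg_sum_sq_le {P : Fin W → ℝ} (h0 : ∀ x, 0 ≤ P x) (h1 : ∑ x, P x = 1) (g : Fin W → ℝ)
    (hm : ∑ x, P x * g x = 0) (B : ℝ) (hB : ∀ x, |g x| ≤ B) :
    avg P (fun ω : Fin H → Fin W => (∑ i, g (ω i)) ^ 2) ≤ H * B ^ 2 := by
  classical
  simp only [sq, sum_mul_sum, avg_sum]
  refine (sum_le_sum (g := fun _ => B * B) fun i _ => ?_).trans (le_of_eq (by simp))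
  rw [sum_eq_single i (fun j _ hj => ?_) fun h => absurd (mem_univ i) h]
  · refine le_of_abs_le (Vale.Agent.P110.Exist.Tiling.abs_avg_le h0 h1 fun ω => ?_)
    rw [abs_mul]
    exact mul_le_mul (hB _) (hB _) (abs_nonneg _) ((abs_nonneg _).trans (hB (ω i)))
  · have h := avg_prod (H := H) h1 {i, j} fun _ x => g x
    simp only [prod_pair hj.symm, hm, mul_zero] at h
    exact h

/-- The tiles of one label set. -/
lemma avg_tiles_le (hW : 0 < W) (Λ : Finset (Fin W)) :
    avg (unif W) (fun ω : Fin H → Fin W =>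
      |((tiles Λ ω).card : ℝ) - 2 * H * ((Λ.card : ℝ) / W)|) ≤ 4 * √(H : ℝ) := by
  have h0 : ∀ x, 0 ≤ unif W x := fun x => by simp [unif]
  have h1 := sum_unif_univ hW
  refine (avg_abs_le h0 h1 _).trans ?_
  set k := (Λ.card : ℝ) / W with hk
  set g : Fin W → ℝ := fun x =>
    (if x ∈ Λ then (1 : ℝ) else 0) + (if x.rev ∈ Λ then (1 : ℝ) else 0) - 2 * k with hg
  have e : ∀ ω : Fin H → Fin W, ((tiles Λ ω).card : ℝ) - 2 * H * k = ∑ i, g (ω i) := fun ω => by
    simp only [card_tiles_eq, g, sum_sub_distrib, sum_const, card_univ, Fintype.card_fin,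
      nsmul_eq_mul]
    ring
  have hr : (univ.filter fun x : Fin W => x.rev ∈ Λ).card = Λ.card := by
    exact card_bij (fun x _ => x.rev) (fun x hx => (mem_filter.1 hx).2)
      (fun x _ y _ h => Fin.rev_injective h) fun y hy => ⟨y.rev, by simp [hy], Fin.rev_rev y⟩
  have hm : ∑ x, unif W x * g x = 0 := by
    simp only [g, mul_sub, mul_add, sum_sub_distrib, sum_add_distrib, ← sum_mul]
    simp only [mul_ite, mul_one, mul_zero, sum_ite, sum_const_zero, add_zero,
      filter_mem_eq_inter, univ_inter, sum_unif, hr, card_univ, Fintype.card_fin]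
    rw [div_self (Nat.cast_ne_zero.2 hW.ne'), hk]
    ring
  have hk1 : k ≤ 1 := by
    rw [hk, div_le_one (by exact_mod_cast hW)]
    exact_mod_cast (card_le_univ Λ).trans_eq (Fintype.card_fin W)
  have hk0 : 0 ≤ k := by rw [hk]; positivity
  have hgb : ∀ x, |g x| ≤ 4 := fun x => by
    simp only [g, abs_le]
    split_ifs <;> constructor <;> linarith
  simp only [e]
  refine (Real.sqrt_le_sqrt (avg_sum_sq_le h0 h1 g hm 4 hgb)).trans_eq ?_
  rw [mul_comm, Real.sqrt_mul (by norm_num), Real.sqrt_sq (by norm_num)]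

open Classical in
/-- **The choice.** For `H` large some labelling has small total deviation on all fibres, and
nearly the mean number of tiles for the label set of one given harmonic. -/
theorem exists_labelling (hD : 2 ≤ D) {S : Finset (Fin D → ℤ)}
    (hprim : ∀ n ∈ S, ∃ z : Fin D → ℤ, ∑ i, n i * z i = 1) (hneg : ∀ n ∈ S, -n ∉ S)
    (hW : 0 < W) (Λ : (Fin D → ℤ) → Finset (Fin W)) {J : Type} [Fintype J]
    (q : J → (Fin D → ℤ) → ℕ) (n₁ : Fin D → ℤ) {ε : ℝ} (hε : 0 < ε) :
    ∃ (H : ℕ) (_ : NeZero H) (ω : Fin H → Fin W),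
      (∑ n ∈ S, ∑ j, ∑ s, |fibDev S Λ (q j) ω n s|) + Fintype.card J *
          ((2 * H : ℕ) : ℝ) ^ (D - 1) *
            |((tiles (Λ n₁) ω).card : ℝ) - 2 * H * (((Λ n₁).card : ℝ) / W)| ≤
        ε * (2 * H * Fintype.card J * ((2 * H : ℕ) : ℝ) ^ (D - 1)) := by
  obtain ⟨C, hC⟩ := exists_coincide_le hD S hprim hneg
  obtain ⟨H0, hH0⟩ := exists_nat_ge ((((S.card : ℝ) * √(C : ℝ) + 4) / ε) ^ 2)
  refine ⟨H0 + 1, inferInstance, ?_⟩
  set H := H0 + 1
  set N : ℝ := ((2 * H : ℕ) : ℝ) ^ (D - 1)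
  have h0 : ∀ x, 0 ≤ unif W x := fun x => by simp [unif]
  have h1 := sum_unif_univ hW
  set T : (Fin H → Fin W) → ℝ := fun ω =>
    |((tiles (Λ n₁) ω).card : ℝ) - 2 * H * (((Λ n₁).card : ℝ) / W)|
  set Z : (Fin H → Fin W) → ℝ := fun ω => ∑ n ∈ S, ∑ j, ∑ s : ZMod (2 * H),
    |∑ y ∈ univ.filter (fun y : Fin D → ZMod (2 * H) => tileS (q j) n y = s),
      dev (unif W) S n (tileAt (q j) y) (fun n' => ev (Λ n') (tileS (q j) n' y)) ω|
  obtain ⟨ω, hω⟩ := exists_le_avg h0 h1 fun ω => Z ω + Fintype.card J * N * T ω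
  refine ⟨ω, le_of_eq_of_le ?_ (hω.trans ?_)⟩
  · refine congrArg (· + _) (sum_congr rfl fun n hn => sum_congr rfl fun j _ =>
      sum_congr rfl fun s _ => congrArg abs ?_)
    obtain ⟨z, hz⟩ := hprim n hn
    have hcard : ((univ.filter (fun y : Fin D → ZMod (2 * H) =>
        tileS (q j) n y = s)).card : ℝ) = N := by
      have h := card_fibre hz (s - (q j n : ZMod (2 * H)))
      rw [show (2 * H) ^ D = (2 * H) ^ (D - 1) * (2 * H) by rw [← pow_succ]; congr 1; omega] at h
      simp only [N, ← Nat.cast_pow, Nat.cast_inj, ← Nat.eq_of_mul_eq_mul_right (NeZero.pos _) h]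
      refine congrArg Finset.card (filter_congr fun y _ => ?_)
      simp [tileS, eq_sub_iff_add_eq]
    have e : ∀ y ∈ univ.filter (fun y : Fin D → ZMod (2 * H) => tileS (q j) n y = s),
        dev (unif W) S n (tileAt (q j) y) (fun n' => ev (Λ n') (tileS (q j) n' y)) ω =
          (if Good S Λ (q j) ω y then (1 : ℝ) else 0) -
            (∏ n' ∈ S.erase n, ((Λ n').card : ℝ) / W) *
              (if lab ω s ∈ Λ n then (1 : ℝ) else 0) := by
      intro y hy
      have hys := (mem_filter.1 hy).2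
      have hgi : goodI S (tileAt (q j) y) (fun n' => ev (Λ n') (tileS (q j) n' y)) ω =
          if Good S Λ (q j) ω y then (1 : ℝ) else 0 := by
        unfold goodI hit
        rw [prod_boole]
        exact if_congr (forall₂_congr fun n' _ => mem_ev (Λ n') ω (tileS (q j) n' y)) rfl rfl
      rw [dev, hgi]
      simp only [hit, sum_unif, card_ev, hys,
        show tileAt (q j) y n = fold s from congrArg fold hys, mem_ev]
    rw [sum_congr rfl e, sum_sub_distrib, sum_const, nsmul_eq_mul, hcard, ← sum_filter, sum_const,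
      nsmul_one, filter_filter, fibDev, inTile]
    ring
  · rw [avg_add, avg_const_mul]
    have hN : 0 ≤ N := by positivity
    have hZ : avg (unif W) Z ≤ (S.card : ℝ) * (Fintype.card J * (√((C : ℝ) * (2 * H : ℕ)) * N)) := by
      simp only [Z, avg_sum]
      refine (sum_le_sum (g := fun _ => (Fintype.card J : ℝ) * (√((C : ℝ) * (2 * H : ℕ)) * N))
        fun n hn => (sum_le_sum (g := fun _ => √((C : ℝ) * (2 * H : ℕ)) * N) fun j _ => ?_).trans
          (le_of_eq (by simp))).trans (le_of_eq (by simp))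
      set B : Finset ((Fin D → ZMod (2 * H)) × (Fin D → ZMod (2 * H))) :=
        univ.filter fun x => dotZ n x.1 = dotZ n x.2 ∧
          ¬ Apart S n (tileAt (q j) x.1) (tileAt (q j) x.2)
      set β : ZMod (2 * H) → ℕ := fun s => (B.filter fun x => tileS (q j) n x.1 = s).card
      refine (sum_le_sum (g := fun s => √(β s : ℝ)) fun s _ => (avg_abs_le h0 h1 _).trans
        (Real.sqrt_le_sqrt ?_)).trans ?_
      · refine avg_sq_le h0 h1 hn _ (fun y => tileAt (q j) y)
          (fun y n' => ev (Λ n') (tileS (q j) n' y)) (fold s) (ev (Λ n) s)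
          (fun y hy => congrArg fold (mem_filter.1 hy).2)
          (fun y hy => congrArg (ev (Λ n)) (mem_filter.1 hy).2) _ fun y hy y' hy' hna => ?_
        have e1 := (mem_filter.1 hy).2
        have e2 := (mem_filter.1 hy').2
        simp only [mem_filter, mem_univ, true_and, B]
        exact ⟨⟨add_right_cancel (e1.trans e2.symm), hna⟩, e1⟩
      · have hsum : ∑ s, (β s : ℝ) ≤ (C : ℝ) * N ^ 2 := by
          have h := (card_eq_sum_card_fiberwise (s := B) (t := univ)
            (f := fun x => tileS (q j) n x.1) fun _ _ => mem_coe.2 (mem_univ _)).symm.trans_le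
              (hC H (q j) n hn B fun x hx => (mem_filter.1 hx).2)
          simp only [N, ← pow_mul, show (D - 1) * 2 = 2 * D - 2 by omega]
          exact_mod_cast h
        have hs := sum_mul_sq_le_sq_mul_sq univ (fun _ : ZMod (2 * H) => (1 : ℝ))
          fun s => √(β s : ℝ)
        simp only [one_mul, one_pow, sum_const, card_univ, ZMod.card, nsmul_eq_mul, mul_one,
          Real.sq_sqrt (Nat.cast_nonneg _)] at hs
        refine (Real.le_sqrt_of_sq_le hs).trans ((Real.sqrt_le_sqrt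
          (mul_le_mul_of_nonneg_left hsum (Nat.cast_nonneg _))).trans (le_of_eq ?_))
        rw [mul_left_comm, ← mul_assoc, Real.sqrt_mul (by positivity), Real.sqrt_sq hN]
    have hT : avg (unif W) T ≤ 4 * √(H : ℝ) := avg_tiles_le hW (Λ n₁)
    have hHr : ((S.card : ℝ) * √(C : ℝ) + 4) / ε ≤ √(H : ℝ) :=
      Real.le_sqrt_of_sq_le (hH0.trans (by simp only [H]; push_cast; linarith))
    rw [div_le_iff₀ hε] at hHr
    have h2 : √((C : ℝ) * (2 * H : ℕ)) ≤ 2 * √(C : ℝ) * √(H : ℝ) := by
      rw [Real.sqrt_mul (Nat.cast_nonneg C), mul_comm 2 (√(C : ℝ)), mul_assoc]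
      refine mul_le_mul_of_nonneg_left ?_ (Real.sqrt_nonneg _)
      rw [Real.sqrt_le_left (by positivity)]
      push_cast
      rw [mul_pow, Real.sq_sqrt (Nat.cast_nonneg _)]
      linarith [H.cast_nonneg (α := ℝ)]
    have key : (S.card : ℝ) * √((C : ℝ) * (2 * H : ℕ)) + 4 * √(H : ℝ) ≤ ε * (2 * H) := by
      nlinarith [mul_le_mul_of_nonneg_left h2 (Nat.cast_nonneg (α := ℝ) S.card),
        mul_le_mul_of_nonneg_right hHr (Real.sqrt_nonneg (H : ℝ)),
        Real.mul_self_sqrt (Nat.cast_nonneg (α := ℝ) H), Real.sqrt_nonneg (H : ℝ)]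
    have hJN : 0 ≤ (Fintype.card J : ℝ) * N := by positivity
    nlinarith [mul_le_mul_of_nonneg_left key hJN, mul_le_mul_of_nonneg_left hT hJN]

end Vale.Agent.P130.Rank.LabelTiling
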