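import Vale.Agent.P110.Exist.Tiling
import Vale.Agent.P130.Rank.LabelTiling.Choice

/-!
The number of good points and of the copies past capacity.
-/

open Finset

namespace Vale.Agent.P130.Rank.LabelTiling

open Vale.Agent.P110.Exist.Tiling (dotZ fold card_mod_class)

variable {D H W : ℕ} [NeZero H] {S : Finset (Fin D → ℤ)} (Λ : (Fin D → ℤ) → Finset (Fin W))
  {J : Type} [Fintype J] (q : J → (Fin D → ℤ) → ℕ) (ω : Fin H → Fin W)

open Classical in
/-- The good points. -/
noncomputable def goods (S : Finset (Fin D → ℤ)) : Finset ((Fin D → ZMod (2 * H)) × J) :=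
  univ.filter fun x => Good S Λ (q x.2) ω x.1

/-- The good points, counted by tile. -/
lemma card_goods (n : Fin D → ℤ) :
    (goods Λ q ω S).card = ∑ j, ∑ s, inTile S Λ (q j) ω n s := by
  classical
  rw [← sum_product', card_eq_sum_card_fiberwise (f := fun x => (x.2, tileS (q x.2) n x.1))
    (t := univ ×ˢ univ) fun _ _ => mem_coe.2 (mem_product.2 ⟨mem_univ _, mem_univ _⟩)]
  refine sum_congr rfl fun a _ => ?_
  refine card_bij (fun x _ => x.1) (fun x hx => ?_) (fun x hx x' hx' e => ?_) fun y hy => ?_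
  · simp only [mem_filter, mem_univ, true_and, goods, Prod.ext_iff] at hx ⊢
    obtain ⟨h1, h2, h3⟩ := hx
    rw [h2] at h1 h3
    exact ⟨h3, h1⟩
  · simp only [mem_filter, mem_univ, true_and, goods, Prod.ext_iff] at hx hx'
    exact Prod.ext e (hx.2.1.trans hx'.2.1.symm)
  · simp only [mem_filter, mem_univ, true_and] at hy
    exact ⟨(y, a.1), by simp [goods, hy.1, hy.2], rfl⟩

/-- One fibre deviation and one tile count pin down the number of good points. -/
lemma goods_close {n : Fin D → ℤ} (hn : n ∈ S) :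
    ((Λ n).card : ℝ) / W * |((goods Λ q ω S).card : ℝ) - 2 * H * Fintype.card J *
      ((2 * H : ℕ) : ℝ) ^ (D - 1) * ∏ a ∈ S, ((Λ a).card : ℝ) / W| ≤
    ((Λ n).card : ℝ) / W * (∑ j, ∑ s, |fibDev S Λ (q j) ω n s|) +
      (∏ a ∈ S, ((Λ a).card : ℝ) / W) * (Fintype.card J * ((2 * H : ℕ) : ℝ) ^ (D - 1) *
        |((tiles (Λ n) ω).card : ℝ) - 2 * H * (((Λ n).card : ℝ) / W)|) := by
  classical
  set π := ∏ a ∈ S, ((Λ a).card : ℝ) / W
  set N : ℝ := ((2 * H : ℕ) : ℝ) ^ (D - 1)
  set X := ((goods Λ q ω S).card : ℝ)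
  set k := ((Λ n).card : ℝ) / W with hk
  set T := ((tiles (Λ n) ω).card : ℝ)
  have hk0 : 0 ≤ k := by rw [hk]; positivity
  have hπ0 : 0 ≤ π := prod_nonneg fun a _ => by positivity
  have e : X = ∑ j, ∑ s, (inTile S Λ (q j) ω n s : ℝ) := by
    simp only [X, card_goods Λ q ω n, Nat.cast_sum]
  have hπ : π = k * ∏ n' ∈ S.erase n, ((Λ n').card : ℝ) / W :=
    (mul_prod_erase S (fun a => ((Λ a).card : ℝ) / W) hn).symm
  have e2 : k * (∑ j, ∑ s, fibDev S Λ (q j) ω n s) = k * X - π * N * Fintype.card J * T := by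
    simp only [fibDev, sum_sub_distrib, ← mul_sum, sum_boole, sum_const, card_univ,
      nsmul_eq_mul, ← e, hπ, N, T, tiles]
    ring
  have e3 : k * (X - 2 * H * Fintype.card J * N * π) = k * (∑ j, ∑ s, fibDev S Λ (q j) ω n s) +
      π * (Fintype.card J * N * (T - 2 * H * k)) := by rw [e2]; ring
  calc k * |X - 2 * H * Fintype.card J * N * π| = |k * (X - 2 * H * Fintype.card J * N * π)| := by
        rw [abs_mul, abs_of_nonneg hk0]
    _ ≤ _ := by
        rw [e3]
        refine (abs_add_le _ _).trans (add_le_add ?_ (le_of_eq ?_))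
        · rw [abs_mul, abs_of_nonneg hk0]
          exact mul_le_mul_of_nonneg_left ((abs_sum_le_sum_abs _ _).trans
            (sum_le_sum fun j _ => abs_sum_le_sum_abs _ _)) hk0
        · rw [abs_mul, abs_mul, abs_of_nonneg hπ0,
            abs_of_nonneg (show 0 ≤ (Fintype.card J : ℝ) * N by positivity)]

omit [Fintype J] in
/-- The copies past the capacity are at most the deviation. -/
lemma overflow_le {Lm L m R Q : ℕ} (q : Fin Lm → (Fin D → ℤ) → ℕ) (hL : L * m = Lm) (hL0 : 0 < L)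
    {n : Fin D → ℤ} (hn : n ∈ S)
    (hQ : (R : ℝ) * ((m : ℝ) * ((2 * H : ℕ) : ℝ) ^ (D - 1) *
      ∏ n' ∈ S.erase n, ((Λ n').card : ℝ) / W) ≤ Q) :
    ((∑ u ∈ (goods Λ q ω S).image (fun x => (tileS (q x.2) n x.1, (x.2 : ℕ) % L)),
      (R * ((goods Λ q ω S).filter fun z => (tileS (q z.2) n z.1, (z.2 : ℕ) % L) = u).card
        - Q) : ℕ) : ℝ) ≤ R * ∑ j, ∑ s, |fibDev S Λ (q j) ω n s| := by
  classical
  push_cast
  refine (sum_le_sum (g := fun u => (R : ℝ) *
    ∑ j ∈ {j : Fin Lm | (j : ℕ) % L = u.2}, |fibDev S Λ (q j) ω n u.1|) fun u hu => ?_).trans ?_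
  · obtain ⟨y, hy, rfl⟩ := mem_image.1 hu
    have hcol : lab ω (tileS (q y.2) n y.1) ∈ Λ n := (mem_filter.1 hy).2 n hn
    set s := tileS (q y.2) n y.1
    set l := (y.2 : ℕ) % L
    set F := ((goods Λ q ω S).filter fun z => (tileS (q z.2) n z.1, (z.2 : ℕ) % L) = (s, l)).card
    have hF : F = ∑ j ∈ {j : Fin Lm | (j : ℕ) % L = l}, inTile S Λ (q j) ω n s := by
      simp only [inTile]
      rw [← card_sigma]
      refine card_bij (fun z _ => ⟨z.2, z.1⟩) (fun z hz => ?_) (fun z _ z' _ e => ?_)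
        fun z hz => ?_
      · simp only [mem_filter, goods, mem_univ, true_and, Prod.ext_iff, mem_sigma] at hz ⊢
        exact ⟨hz.2.2, hz.2.1, hz.1⟩
      · simp only [Sigma.mk.injEq, heq_eq_eq] at e
        exact Prod.ext e.2 e.1
      · simp only [mem_sigma, mem_filter, mem_univ, true_and] at hz
        exact ⟨(z.2, z.1), by simp [goods, hz.1, hz.2.1, hz.2.2], rfl⟩
    have hcls : #{j : Fin Lm | (j : ℕ) % L = l} = m := by
      subst hL
      exact card_mod_class hL0 l (Nat.mod_lt _ hL0)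
    have hfs : (F : ℝ) - (m : ℝ) * ((2 * H : ℕ) : ℝ) ^ (D - 1) *
        (∏ n' ∈ S.erase n, ((Λ n').card : ℝ) / W) =
        ∑ j ∈ {j : Fin Lm | (j : ℕ) % L = l}, fibDev S Λ (q j) ω n s := by
      simp only [fibDev, if_pos hcol, mul_one, sum_sub_distrib, hF, Nat.cast_sum, sum_const, hcls,
        nsmul_eq_mul]
      ring
    by_cases hle : R * F ≤ Q
    · rw [Nat.sub_eq_zero_of_le hle, Nat.cast_zero]
      exact mul_nonneg (Nat.cast_nonneg _) (sum_nonneg fun _ _ => abs_nonneg _)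
    · rw [Nat.cast_sub (not_le.1 hle).le, Nat.cast_mul]
      refine le_trans ?_ (mul_le_mul_of_nonneg_left
        ((le_abs_self _).trans ((congrArg abs hfs).trans_le (abs_sum_le_sum_abs _ _)))
        (Nat.cast_nonneg _))
      rw [mul_sub]
      linarith
  · rw [← mul_sum]
    refine mul_le_mul_of_nonneg_left ((sum_le_sum_of_subset_of_nonneg
      (t := univ ×ˢ range L) (fun u hu => ?_) fun _ _ _ =>
        sum_nonneg fun _ _ => abs_nonneg _).trans (le_of_eq ?_)) (Nat.cast_nonneg _)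
    · obtain ⟨y, -, rfl⟩ := mem_image.1 hu
      exact mem_product.2 ⟨mem_univ _, mem_range.2 (Nat.mod_lt _ hL0)⟩
    · rw [sum_product, sum_comm (f := fun j s => |fibDev S Λ (q j) ω n s|)]
      exact sum_congr rfl fun s _ => sum_fiberwise_of_maps_to
        (fun j _ => mem_range.2 (Nat.mod_lt _ hL0)) fun j => |fibDev S Λ (q j) ω n s|

end Vale.Agent.P130.Rank.LabelTiling
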